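import Vale.Agent.P022F.Al.Defs
import Vale.Agent.P022D.As.Act

/-!
# P022F, block Al: the action of the power series
-/

set_option linter.all false

open IsLocalRing

noncomputable section

namespace Vale.Agent.P022F.Al

open Vale.Agent.P022D Vale.Agent.P022D.Core

namespace Ac

variable {O : Type} [CommRing O]

/-- the ideal of the `k`-th powers of the variables -/
def J (O : Type) [CommRing O] (k : ℕ) : Ideal (R2 O) :=
  Ideal.span {MvPowerSeries.X 0 ^ k, MvPowerSeries.X 1 ^ k}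

theorem mem_J {k : ℕ} {g : R2 O} : g ∈ J O k ↔
    ∀ m : Fin 2 →₀ ℕ, m 0 < k → m 1 < k → MvPowerSeries.coeff m g = 0 := by
  classical
  constructor
  · intro h m h0 h1
    obtain ⟨a, b, rfl⟩ := Ideal.mem_span_pair.1 h
    rw [map_add, MvPowerSeries.X_pow_dvd_iff.1 (dvd_mul_left _ a) m h0,
      MvPowerSeries.X_pow_dvd_iff.1 (dvd_mul_left _ b) m h1, add_zero]
  · intro h
    let g0 : R2 O := fun m => if k ≤ m 0 then g m else 0
    have e0 : ∀ m, MvPowerSeries.coeff m g0 = if k ≤ m 0 then MvPowerSeries.coeff m g else 0 :=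
      fun _ => rfl
    obtain ⟨a, ha⟩ : (MvPowerSeries.X 0 : R2 O) ^ k ∣ g0 :=
      MvPowerSeries.X_pow_dvd_iff.2 fun m hm => by rw [e0, if_neg (by omega)]
    obtain ⟨b, hb⟩ : (MvPowerSeries.X 1 : R2 O) ^ k ∣ g - g0 :=
      MvPowerSeries.X_pow_dvd_iff.2 fun m hm => by
        rw [map_sub, e0]
        split_ifs with c
        · exact sub_self _
        · rw [h m (by omega) hm, sub_zero]
    exact Ideal.mem_span_pair.2 ⟨a, b, by rw [mul_comm a, mul_comm b, ← ha, ← hb]; ring⟩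

theorem J_anti {k l : ℕ} (h : k ≤ l) : J O l ≤ J O k := fun _ hg =>
  mem_J.2 fun m h0 h1 => mem_J.1 hg m (by omega) (by omega)

theorem dec (k : ℕ) (u : R2 O) : ∃ f : MvPolynomial (Fin 2) O, u - (f : R2 O) ∈ J O k := by
  classical
  refine ⟨MvPowerSeries.trunc' O (Finsupp.single 0 k + Finsupp.single 1 k) u, mem_J.2 fun m h0 h1 => ?_⟩
  rw [map_sub, MvPolynomial.coeff_coe, MvPowerSeries.coeff_trunc', if_pos, sub_self]
  intro i
  fin_cases i
  · simpa using h0.le
  · simpa using h1.le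

variable {T Y : Type} [CommRing T] [Algebra O T] [AddCommGroup Y] [Module T Y] {x : Fin 2 → T}

theorem kil {k : ℕ} {f : MvPolynomial (Fin 2) O} (h : (f : R2 O) ∈ J O k) {w : Y}
    (hw : ∀ i, x i ^ k • w = 0) : MvPolynomial.aeval x f • w = 0 := by
  rw [f.as_sum, map_sum, Finset.sum_smul]
  refine Finset.sum_eq_zero fun m hm => ?_
  obtain ⟨i, hi⟩ : ∃ i, k ≤ m i := by
    by_contra c
    push Not at c
    have := mem_J.1 h m (c 0) (c 1)
    rw [MvPolynomial.coeff_coe] at this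
    exact MvPolynomial.mem_support_iff.1 hm this
  obtain ⟨c, hc⟩ : x i ^ k ∣ MvPolynomial.aeval x (MvPolynomial.monomial m (f.coeff m)) := by
    rw [MvPolynomial.aeval_monomial, Finsupp.prod_fintype _ _ fun _ => pow_zero _]
    exact ((pow_dvd_pow _ hi).trans
      (Finset.dvd_prod_of_mem (fun j => x j ^ m j) (Finset.mem_univ i))).mul_left _
  rw [hc, mul_comm, mul_smul, hw, smul_zero]

theorem up {t : T} {w : Y} {k l : ℕ} (h : k ≤ l) (hw : t ^ k • w = 0) : t ^ l • w = 0 := by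
  obtain ⟨c, rfl⟩ := Nat.exists_eq_add_of_le h
  rw [add_comm, pow_add, mul_smul, hw, smul_zero]

variable [Module (R2 O) Y]

theorem xk (h : Cp O x Y) {k : ℕ} {w : Y} (hw : ∀ i, x i ^ k • w = 0) (i : Fin 2) :
    (MvPowerSeries.X i : R2 O) ^ k • w = 0 := by
  have := h (MvPolynomial.X i ^ k) w
  rwa [MvPolynomial.coe_pow, MvPolynomial.coe_X, map_pow, MvPolynomial.aeval_X, hw] at this

theorem eq (h : Cp O x Y) {k : ℕ} {u : R2 O} {f : MvPolynomial (Fin 2) O}
    (hf : u - (f : R2 O) ∈ J O k) {w : Y} (hw : ∀ i, x i ^ k • w = 0) :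
    u • w = MvPolynomial.aeval x f • w := by
  obtain ⟨a, b, e⟩ := Ideal.mem_span_pair.1 hf
  rw [← h, ← sub_eq_zero, ← sub_smul, ← e, add_smul, mul_smul, mul_smul, xk h hw, xk h hw,
    smul_zero, smul_zero, add_zero]

end Ac

open Ac

/-- **row ACT** -/
theorem act : ACT := by
  intro O T Y _ _ _ _ _ ϖ x hN
  letI : Module (MvPolynomial (Fin 2) O) Y :=
    Module.compHom Y (MvPolynomial.aeval (R := O) x).toRingHom
  let Γ : ℕ → Subring (R2 O × MvPolynomial (Fin 2) O) := fun k =>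
    As.gr (Ideal.Quotient.mk (J O k))
      ((Ideal.Quotient.mk (J O k)).comp MvPolynomial.coeToMvPowerSeries.ringHom)
  have m : ∀ k u f, (u, f) ∈ Γ k ↔ u - (f : R2 O) ∈ J O k := fun k u f =>
    As.mem_gr.trans Ideal.Quotient.eq
  have hG : As.Dir (Set.range Γ) := ⟨by
    rintro _ ⟨k, rfl⟩ u
    exact (dec k u).imp fun f hf => (m _ _ _).2 hf, by
    rintro _ ⟨k, rfl⟩ _ ⟨l, rfl⟩
    exact ⟨_, ⟨max k l, rfl⟩, fun p hp => (m _ p.1 p.2).2 (J_anti (le_max_left _ _) ((m _ _ _).1 hp)),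
      fun p hp => (m _ p.1 p.2).2 (J_anti (le_max_right _ _) ((m _ _ _).1 hp))⟩⟩
  obtain ⟨i, hi⟩ := hG.exists_mod (V := Y) fun w => by
    obtain ⟨k, -, hk⟩ := hN w
    refine ⟨_, ⟨k, rfl⟩, fun f hf => ?_⟩
    have := (m _ _ _).1 hf
    rw [zero_sub, neg_mem_iff] at this
    exact kil this hk
  refine ⟨i, fun f w => hi.all (t := f) ?_ w⟩
  rintro _ ⟨k, rfl⟩
  exact (m _ _ _).2 (by rw [sub_self]; exact zero_mem _)

/-- **row ACT2** -/
theorem act2 : ACT2 := by
  intro O T Y _ _ _ _ _ _ _ _ ϖ x hϖ hN hC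
  choose k hk0 hk using hN
  refine ⟨fun u s => ?_, fun w => ?_, fun u p w => ?_, fun Y' _ _ _ _ hC' φ u w => ?_⟩
  · obtain ⟨f, hf⟩ := dec (s.sup k) u
    exact ⟨f, fun w hw => eq hC hf fun i => up (Finset.le_sup hw) (hk w i)⟩
  · let I : Ideal (R2 O) := Ideal.span {MvPowerSeries.C ϖ} ⊔ J O 1
    have h1 : maximalIdeal (R2 O) ≤ I := fun u hu => by
      have c : MvPowerSeries.constantCoeff u ∈ maximalIdeal O := fun e =>
        hu (MvPowerSeries.isUnit_iff_constantCoeff.2 e)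
      rw [hϖ.maximalIdeal_eq, Ideal.mem_span_singleton] at c
      obtain ⟨c, hc⟩ := c
      rw [← add_sub_cancel (MvPowerSeries.C (MvPowerSeries.constantCoeff u)) u]
      refine Submodule.add_mem_sup (Ideal.mem_span_singleton.2 ⟨MvPowerSeries.C c, by
        rw [hc, map_mul]⟩) (mem_J.2 fun m h0 h1 => ?_)
      have : m = 0 := by
        ext i
        fin_cases i
        · simpa using h0
        · simpa using h1
      subst this
      simp
    have h2 : I ≤ (Ideal.torsionOf (R2 O) Y w).radical := by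
      refine sup_le ((Ideal.span_singleton_le_iff_mem _).2 ⟨k w, ?_⟩) (Ideal.span_le.2 ?_)
      · have := hC (MvPolynomial.C ϖ ^ k w) w
        rwa [MvPolynomial.coe_pow, MvPolynomial.coe_C, map_pow, MvPolynomial.aeval_C, hk0,
          ← Ideal.mem_torsionOf_iff] at this
      · rintro _ (rfl | rfl)
        · exact ⟨k w, by rw [pow_one, Ideal.mem_torsionOf_iff]; exact xk hC (hk w) 0⟩
        · exact ⟨k w, by rw [pow_one, Ideal.mem_torsionOf_iff]; exact xk hC (hk w) 1⟩
    obtain ⟨N, hN⟩ := Ideal.exists_pow_le_of_le_radical_of_fg h2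
      (Submodule.FG.sup (Submodule.fg_span (Set.finite_singleton _))
        (Submodule.fg_span ((Set.finite_singleton _).insert _)))
    exact ⟨N, fun u hu => (Ideal.mem_torsionOf_iff _ _).1 (hN (Ideal.pow_right_mono h1 N hu))⟩
  · obtain ⟨f, hf⟩ := dec (k w) u
    rw [eq hC hf (hk w), eq hC hf fun i => by rw [smul_comm, hk, smul_zero], smul_comm]
  · obtain ⟨f, hf⟩ := dec (k w) u
    rw [eq hC hf (hk w), eq hC' hf fun i => by rw [← map_smul, hk, map_zero], map_smul]

end Vale.Agent.P022F.Al
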