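import Vale.Agent.P022D.As.Defs

/-!
# P022F, block Al: modules over power series in two variables (statements)
-/

set_option linter.all false

open IsLocalRing

noncomputable section

namespace Vale.Agent.P022F.Al

open Vale.Agent.P022D Vale.Agent.P022D.Core

/-- the power series ring -/
abbrev R2 (O : Type) : Type := MvPowerSeries (Fin 2) O

section
variable {O T : Type} [CommRing O] [CommRing T] [Algebra O T]

/-- `ϖ` and the `x i` are locally nilpotent -/
def Nil (ϖ : O) (x : Fin 2 → T) (Y : Type) [AddCommGroup Y] [Module T Y] : Prop :=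
  ∀ w : Y, ∃ k : ℕ, algebraMap O T ϖ ^ k • w = 0 ∧ ∀ i, x i ^ k • w = 0

variable (O) in
/-- on finite sets every element acts as a polynomial in the `x i` -/
def Gn (x : Fin 2 → T) (Y : Type) [AddCommGroup Y] [Module T Y] : Prop :=
  ∀ (s : Finset Y) (p : T), ∃ f : MvPolynomial (Fin 2) O, ∀ w ∈ s,
    p • w = MvPolynomial.aeval x f • w

variable (O) in
/-- the action of the power series extends the action of the polynomials -/
def Cp (x : Fin 2 → T) (Y : Type) [AddCommGroup Y] [Module T Y] [Module (R2 O) Y] : Prop :=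
  ∀ (f : MvPolynomial (Fin 2) O) (w : Y), (f : R2 O) • w = MvPolynomial.aeval x f • w

end

/-- row ACT: the action exists -/
def ACT : Prop := ∀ (O T Y : Type) [CommRing O] [CommRing T] [Algebra O T] [AddCommGroup Y]
  [Module T Y] (ϖ : O) (x : Fin 2 → T), Nil ϖ x Y → ∃ _ : Module (R2 O) Y, Cp O x Y

/-- row ACT2: a power series acts on finite sets as a polynomial; linear maps are linear;
the module is discrete -/
def ACT2 : Prop := ∀ (O T Y : Type) [CommRing O] [IsDomain O] [IsDiscreteValuationRing O]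
  [CommRing T] [Algebra O T] [AddCommGroup Y] [Module T Y] [Module (R2 O) Y] (ϖ : O)
  (x : Fin 2 → T), Irreducible ϖ → Nil ϖ x Y → Cp O x Y →
  (∀ (u : R2 O) (s : Finset Y), ∃ f : MvPolynomial (Fin 2) O, ∀ w ∈ s,
    u • w = MvPolynomial.aeval x f • w) ∧
  As.Dis (R2 O) Y ∧
  (∀ (u : R2 O) (p : T) (w : Y), u • p • w = p • u • w) ∧
  ∀ (Y' : Type) [AddCommGroup Y'] [Module T Y'] [Module (R2 O) Y'], Nil ϖ x Y' → Cp O x Y' →
    ∀ (φ : Y →ₗ[T] Y') (u : R2 O) (w : Y), φ (u • w) = u • φ w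

/-- row SBT: the socle over the power series ring -/
def SBT : Prop := ∀ (O T Y : Type) [CommRing O] [IsDomain O] [IsDiscreteValuationRing O]
  [CommRing T] [Algebra O T] [AddCommGroup Y] [Module T Y] [Module (R2 O) Y] (ϖ : O)
  (x : Fin 2 → T) (m : Ideal T) (b : ℕ), Irreducible ϖ → Nil ϖ x Y → Cp O x Y → Gn O x Y →
  algebraMap O T ϖ ∈ m → (∀ i, x i ∈ m) → (∀ p ∈ m, ∀ w : Y, ∃ k : ℕ, p ^ k • w = 0) →
  (∃ s : Fin b → Y, (∀ j, ∀ u ∈ m, u • s j = 0) ∧
    ∀ w : Y, (∀ u ∈ m, u • w = 0) → w ∈ Submodule.span T (Set.range s)) → As.Sb (R2 O) b Y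

/-- row CPT: every element acts as one power series -/
def CPT : Prop := ∀ (O T Y : Type) [CommRing O] [IsDomain O] [IsDiscreteValuationRing O] [Coef O]
  [CommRing T] [Algebra O T] [AddCommGroup Y] [Module T Y] [Module (R2 O) Y] (ϖ : O)
  (x : Fin 2 → T) (b : ℕ), Irreducible ϖ → Nil ϖ x Y → Cp O x Y → Gn O x Y → As.Sb (R2 O) b Y →
  ∀ p : T, ∃ u : R2 O, ((∀ w : Y, ∃ k : ℕ, p ^ k • w = 0) → u ∈ maximalIdeal (R2 O)) ∧
    ∀ w : Y, u • w = p • w

/-- row KILL: the determinant trick on the dual -/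
def KILL : Prop := ∀ (O W : Type) [CommRing O] [IsDomain O] [IsDiscreteValuationRing O] [Coef O]
  [AddCommGroup W] [Module (R2 O) W] (ϖ : O) (b n j : ℕ), Irreducible ϖ → As.Dis (R2 O) W →
  As.Sb (R2 O) b W → j * b ≤ n →
  (∀ w : W, (MvPowerSeries.C ϖ : R2 O) • w = 0 →
    ∃ w' : W, w = (MvPowerSeries.C ϖ : R2 O) ^ n • w') →
  (∀ w : W, (∀ i, (MvPowerSeries.X i : R2 O) • w = 0) → (MvPowerSeries.C ϖ : R2 O) ^ j • w = 0) →
  ∃ u : R2 O, ¬ (MvPowerSeries.C ϖ : R2 O) ∣ u ∧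
    ∀ w : W, (MvPowerSeries.C ϖ : R2 O) • w = 0 → u • w = 0

/-- row DIM: `ϖ` is prime, and it generates the only prime of dimension two which contains it -/
def DIM : Prop := ∀ (O : Type) [CommRing O] [IsDomain O] [IsDiscreteValuationRing O] [Coef O]
  (ϖ : O), Irreducible ϖ → Prime (MvPowerSeries.C ϖ : R2 O) ∧
  ∀ (𝔭 : Ideal (R2 O)) (u : R2 O), 𝔭.IsPrime → (MvPowerSeries.C ϖ : R2 O) ∈ 𝔭 → u ∈ 𝔭 →
    (2 : WithBot ℕ∞) ≤ ringKrullDim (R2 O ⧸ 𝔭) → (MvPowerSeries.C ϖ : R2 O) ∣ u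

end Vale.Agent.P022F.Al
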