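import Vale.Agent.P022F.Al.Defs
import Vale.Agent.P022D.Rl.Ch0
import Vale.Agent.P022D.CA.Pow
import Vale.Agent.P022D.CA.Jac

/-!
# P022F, block Al: the uniformizer in the power series ring
-/

set_option linter.all false

open IsLocalRing

noncomputable section

namespace Vale.Agent.P022F.Al

open Vale.Agent.P022D Vale.Agent.P022D.Core

/-- **row DIM** -/
theorem dim : DIM := by
  intro O _ _ _ _ ϖ hϖ
  have hmax : maximalIdeal O = Ideal.span {ϖ} := hϖ.maximalIdeal_eq
  haveI : IsDomain (MvPowerSeries (Fin 2) (ResidueField O)) := NoZeroDivisors.to_isDomain _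
  haveI : IsDomain (R2 O) := NoZeroDivisors.to_isDomain _
  have hker := CA.ker_map (σ := Fin 2) (residue O) (ker_residue.trans hmax)
  have hP : (Ideal.span {(MvPowerSeries.C ϖ : R2 O)}).IsPrime := hker ▸ RingHom.ker_isPrime _
  have h0 : (MvPowerSeries.C ϖ : R2 O) ≠ 0 := fun e =>
    hϖ.ne_zero (MvPowerSeries.C_injective (e.trans (map_zero _).symm))
  refine ⟨(Ideal.span_singleton_prime h0).1 hP, fun 𝔭 u h𝔭 h1 h2 h3 => ?_⟩
  obtain ⟨hr, hd⟩ := Rl.Ch0.reg (σ := Fin 2) hmax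
  obtain ⟨h, d, e1, e2, e3⟩ := Jac.dim_add_height hd 𝔭
  rw [e2] at h3
  have h4 : 2 ≤ d := by exact_mod_cast h3
  rw [Fintype.card_fin] at e3
  by_contra c
  have l1 : (⊥ : Ideal (R2 O)) < Ideal.span {(MvPowerSeries.C ϖ : R2 O)} :=
    bot_lt_iff_ne_bot.2 fun e => h0 (Ideal.span_singleton_eq_bot.1 e)
  have l2 : Ideal.span {(MvPowerSeries.C ϖ : R2 O)} < 𝔭 :=
    lt_of_le_of_ne ((Ideal.span_singleton_le_iff_mem _).2 h1) fun e =>
      c (Ideal.mem_span_singleton.1 (e ▸ h2))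
  have k1 := Ideal.height_add_one_le_of_lt_of_isPrime l1
  have k2 := Ideal.height_add_one_le_of_lt_of_isPrime l2
  rw [e1] at k2
  have k3 : (2 : ℕ∞) ≤ h := by
    refine le_trans ?_ k2
    rw [← one_add_one_eq_two]
    exact add_le_add (le_trans le_add_self k1) le_rfl
  have k4 : 2 ≤ h := by exact_mod_cast k3
  omega

end Vale.Agent.P022F.Al
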