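import Vale.Agent.P022F.Al.Act

/-!
# P022F, block Al: the socle over the power series ring
-/

set_option linter.all false

open IsLocalRing

noncomputable section

namespace Vale.Agent.P022F.Al

open Vale.Agent.P022D Vale.Agent.P022D.Core Ac

namespace Sbt

theorem cc {O : Type} [CommRing O] (u : R2 O) :
    u - ((MvPolynomial.C (MvPowerSeries.constantCoeff u) : MvPolynomial (Fin 2) O) : R2 O) ∈
      J O 1 := by
  refine mem_J.2 fun m h0 h1 => ?_
  have : m = 0 := by
    ext i
    fin_cases i
    · simpa using h0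
    · simpa using h1
  subst this
  simp

end Sbt

/-- **row SBT** -/
theorem sbt (h : ACT2) : SBT := by
  classical
  intro O T Y _ _ _ _ _ _ _ _ ϖ x m b hϖ hN hC hG h0 hx hm ⟨s, hs, hw⟩
  have mx : ∀ u : R2 O, u ∈ maximalIdeal (R2 O) ↔ ϖ ∣ MvPowerSeries.constantCoeff u := fun u => by
    rw [← Ideal.mem_span_singleton, ← hϖ.maximalIdeal_eq, mem_maximalIdeal, mem_maximalIdeal,
      mem_nonunits_iff, mem_nonunits_iff, MvPowerSeries.isUnit_iff_constantCoeff]
  refine ⟨s, fun j u hu => ?_, fun w hw0 => ?_⟩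
  · obtain ⟨c, hc⟩ := (mx u).1 hu
    rw [eq hC (Sbt.cc u) fun i => by rw [pow_one]; exact hs j _ (hx i), MvPolynomial.aeval_C, hc,
      map_mul]
    exact hs j _ (m.mul_mem_right _ h0)
  · have a0 : algebraMap O T ϖ • w = 0 := by
      rw [← MvPolynomial.aeval_C x, ← hC]
      exact hw0 _ ((mx _).2 (by simp))
    have a1 : ∀ i, x i ^ 1 • w = 0 := fun i => by
      rw [pow_one, ← MvPolynomial.aeval_X (R := O) x i, ← hC]
      exact hw0 _ ((mx _).2 (by simp))
    have a2 : ∀ p ∈ m, p • w = 0 := fun p hp => by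
      obtain ⟨f, hf⟩ := hG {w} p
      have e := hf w (Finset.mem_singleton_self w)
      rw [← hC, eq hC (Sbt.cc (f : R2 O)) a1, MvPolynomial.aeval_C] at e
      generalize MvPowerSeries.constantCoeff (f : R2 O) = c at e
      by_cases hc : IsUnit c
      · obtain ⟨k, hk⟩ := hm p hp w
        have e2 : ∀ l : ℕ, p ^ l • w = algebraMap O T c ^ l • w := fun l => by
          induction l with
          | zero => simp
          | succ l ih => rw [pow_succ, mul_smul, e, smul_comm, ih, ← mul_smul, ← pow_succ']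
        rw [e2] at hk
        rw [((hc.map (algebraMap O T)).pow k).smul_eq_zero.1 hk, smul_zero]
      · have : c ∈ maximalIdeal O := hc
        rw [hϖ.maximalIdeal_eq, Ideal.mem_span_singleton'] at this
        obtain ⟨d, rfl⟩ := this
        rw [e, map_mul, mul_smul, a0, smul_zero]
    obtain ⟨t, ht⟩ := (Submodule.mem_span_range_iff_exists_fun T).1 (hw w a2)
    rw [← ht]
    refine Submodule.sum_mem _ fun j _ => ?_
    obtain ⟨f, hf⟩ := hG {s j} (t j)
    rw [hf _ (Finset.mem_singleton_self _), ← hC]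
    exact Submodule.smul_mem _ _ (Submodule.subset_span ⟨j, rfl⟩)

end Vale.Agent.P022F.Al
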